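import Vale.Agent.P216TE.Defs
import Vale.Agent.P216T.Univ
import Vale.Agent.P216.Bdl.B1

/-!
# P216TF: no torsion and no Baumslag-Solitar relation, from the duality blocks
-/

set_option linter.all false

namespace Vale.Agent.P216TF

open Set Vale.Agent.P216T Vale.Agent.P216M Vale.Agent.P216TE

variable {G : Type} [Group G]

theorem nvc_sub (h : NVC G) (H : Subgroup G) [H.FiniteIndex] : NVC H := fun a ha => by
  refine h a ⟨?_⟩
  have := Subgroup.index_map_subtype (Subgroup.zpowers a)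
  rw [MonoidHom.map_zpowers] at this
  exact this ▸ mul_ne_zero ha.index_ne_zero Subgroup.FiniteIndex.index_ne_zero

theorem cc_sub (h : CC G) (H : Subgroup G) [H.FiniteIndex] : CC H :=
  P216.FinitelyCyclicallyCovered.subgroup h H

theorem nvc_inf (h : NVC G) : Infinite G :=
  not_finite_iff_infinite.1 fun _ => h 1 inferInstance

theorem out_mem (H : Subgroup G) (g : G) : (g : G ⧸ H).out⁻¹ * g ∈ H :=
  QuotientGroup.eq.1 (QuotientGroup.out_eq' _)

theorem fin_of_le {K H : Subgroup G} (hi : K.relIndex H ≠ 0) {S : Set G}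
    (hS : ((fun g : G => (g : G ⧸ H)) '' S).Finite) : ((fun g : G => (g : G ⧸ K)) '' S).Finite := by
  haveI : (K.subgroupOf H).FiniteIndex := ⟨hi⟩
  refine (hS.image2 (fun (q : G ⧸ H) (r : H ⧸ K.subgroupOf H) => ((q.out * r.out : G) : G ⧸ K))
    finite_univ).subset ?_
  rintro _ ⟨g, hg, rfl⟩
  refine ⟨_, ⟨g, hg, rfl⟩, ((⟨_, out_mem H g⟩ : H) : H ⧸ K.subgroupOf H), trivial,
    QuotientGroup.eq.2 ?_⟩
  rw [mul_inv_rev, mul_assoc]
  exact out_mem (K.subgroupOf H) ⟨_, out_mem H g⟩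

theorem fin_of_ge {K H : Subgroup G} (h : K ≤ H) {S : Set G}
    (hS : ((fun g : G => (g : G ⧸ K)) '' S).Finite) : ((fun g : G => (g : G ⧸ H)) '' S).Finite := by
  refine (hS.image (Subgroup.quotientMapOfLE h)).subset ?_
  rintro _ ⟨g, hg, rfl⟩
  exact ⟨_, ⟨g, hg, rfl⟩, rfl⟩

theorem exists_out {H : Subgroup G} [Infinite (G ⧸ H)] {S : Set G}
    (hS : ((fun g : G => (g : G ⧸ H)) '' S).Finite) : ∃ g, ∀ h ∈ H, g * h ∉ S := by
  obtain ⟨q, hq⟩ := hS.exists_notMem
  refine ⟨q.out, fun h hh k => hq ⟨_, k, ?_⟩⟩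
  show ((q.out * h : G) : G ⧸ H) = q
  rw [QuotientGroup.mk_mul_of_mem _ hh, QuotientGroup.out_eq']

theorem endQ_fin (h : OneEnd G) [Infinite G] (H : Subgroup G) [Finite H] (k : Type)
    [AddCommGroup k] [Finite k] : EndQ H k := by
  intro θ h1 h2
  have f : ∀ s, {g | θ (s * g) ≠ θ g}.Finite := fun s => by
    refine ((h2 s).image2 (fun (q : G ⧸ H) (r : H) => q.out * r) finite_univ).subset fun g hg => ?_
    exact ⟨_, ⟨g, hg, rfl⟩, ⟨_, out_mem H g⟩, trivial, mul_inv_cancel_left _ _⟩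
  obtain ⟨t, ht⟩ := Finite.exists_infinite_fiber fun g : G => θ g⁻¹
  have k1 : {g | θ g ≠ t}.Finite := by
    rcases h {g | θ g⁻¹ = t} fun s => ((f s⁻¹).inv).subset fun g hg e => hg (by
      rw [mem_setOf_eq, mem_setOf_eq, mul_inv_rev, e]) with k | k
    · exact absurd k (infinite_coe_iff.1 ht)
    · exact k.inv.subset fun g hg => by simpa using hg
  haveI : Infinite (G ⧸ H) := not_finite_iff_infinite.1 fun _ =>
    not_finite_iff_infinite.2 ‹_› (Finite.of_equiv _ (Subgroup.groupEquivQuotientProdSubgroup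
      (s := H)).symm)
  obtain ⟨g₀, k2⟩ := exists_out (k1.image fun g : G => (g : G ⧸ H))
  refine ⟨fun a ha g => ?_, t, k1.image _⟩
  have k3 := k2 1 H.one_mem
  rw [mul_one] at k3
  rw [← sub_eq_zero, h1 a ha g g₀, not_not.1 (k2 a ha), not_not.1 k3, sub_self]

theorem not_split {p : ℕ} [hp : Fact p.Prime] {H : Type} [Group H] (h : Nat.card H = p) :
    ¬ Split H (ZMod p) := fun hs => by
  have e0 : ∀ a : H, a ^ p = 1 := fun a => by rw [← h]; exact pow_card_eq_one'
  let e : H ≃* Multiplicative (ZMod p) := mulEquivOfPrimeCardEq h (by simp)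
  obtain ⟨t, ht⟩ := hs ⟨fun a b => car (e a).toAdd (e b).toAdd,
    fun g => by rw [map_one, toAdd_one, car_zero_left],
    fun g => by rw [map_one, toAdd_one, car_zero_right],
    fun a b c => by simp only [map_mul, toAdd_mul]; exact car_co _ _ _⟩
  have t0 : t 1 = 0 := by simpa [car_zero_left] using (ht 1 1).symm
  have := carry_aux (t := t) (h := e.symm (.ofAdd 1)) (β := -1) t0 (fun n => by
    have := ht (e.symm (.ofAdd 1) ^ n) (e.symm (.ofAdd 1))
    simp only [map_pow, MulEquiv.apply_symm_apply, toAdd_pow, toAdd_ofAdd, nsmul_eq_mul,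
      mul_one] at this
    rw [pow_succ]
    linear_combination this) (by rw [e0, t0])
  simp at this

theorem not_endQ {H : Subgroup G} [H.FiniteIndex] {k : Type} [AddCommGroup k]
    {χ : H →* Multiplicative k} (hχ : χ ≠ 1) : ¬ EndQ H k := fun h => by
  have e : ∀ a (ha : a ∈ H) (g : G), (χ ⟨_, out_mem H (g * a)⟩).toAdd =
      (χ ⟨_, out_mem H g⟩).toAdd + (χ ⟨a, ha⟩).toAdd := fun a ha g => by
    rw [← toAdd_mul, ← map_mul]
    congr 2
    ext
    simp only [QuotientGroup.mk_mul_of_mem _ ha, Subgroup.coe_mul, mul_assoc]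
  have := (h (fun g => (χ ⟨_, out_mem H g⟩).toAdd)
    (fun a ha g g' => by rw [e a ha, e a ha, add_sub_cancel_left, add_sub_cancel_left])
    fun _ => toFinite _).1
  refine hχ (MonoidHom.ext fun a => ?_)
  have k := this a a.2 1
  rw [e a a.2, add_eq_left] at k
  exact k

theorem endQ_two {H : Subgroup G} [Infinite (G ⧸ H)]
    (h : ∀ K : Subgroup G, K ≤ H → K.relIndex H ≠ 0 → EndQ K (ZMod 3)) : EndQ H (ZMod 2) := by
  intro θ h1 h2
  have inj : ∀ a b : ZMod 2, (a.val : ZMod 3) = b.val → a = b := by decide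
  let ψ : H →* Multiplicative (ZMod 2) := MonoidHom.mk' (fun a => .ofAdd (θ (1 * a) - θ 1))
    fun a b => by
      rw [← ofAdd_add, ← h1 b b.2 (1 * a) 1, Subgroup.coe_mul, mul_assoc]
      congr 1
      abel
  have k1 : ψ.ker.map H.subtype ≤ H := Subgroup.map_subtype_le _
  have k2 : (ψ.ker.map H.subtype).relIndex H ≠ 0 := by
    rw [Subgroup.relIndex, Subgroup.subgroupOf, Subgroup.comap_map_eq_self_of_injective
      H.subtype_injective]
    exact Subgroup.FiniteIndex.index_ne_zero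
  have k3 : ∀ a ∈ ψ.ker.map H.subtype, ∀ g, θ (g * a) = θ g := by
    rintro _ ⟨a, ha, rfl⟩ g
    rw [← sub_eq_zero]
    exact (h1 a a.2 g 1).trans ha
  obtain ⟨-, t, ht⟩ := h _ k1 k2 (fun g => ((θ g).val : ZMod 3))
    (fun a ha g g' => by rw [k3 a ha, k3 a ha, sub_self, sub_self])
    fun s => fin_of_le k2 ((h2 s).subset (image_mono fun g hg e => hg (by rw [e])))
  have k4 := fin_of_ge k1 ht
  obtain ⟨g₀, k5⟩ := exists_out k4
  have k6 := k5 1 H.one_mem
  rw [mul_one] at k6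
  refine ⟨fun a ha g => ?_, θ g₀, k4.subset (image_mono fun g hg e => hg ?_)⟩
  · rw [← sub_eq_zero, h1 a ha g g₀, inj _ _ ((not_not.1 (k5 a ha)).trans (not_not.1 k6).symm),
      sub_self]
  · exact inj _ _ (e.trans (not_not.1 k6).symm)

theorem fin : FinGoal := by
  intro ori bsg pda pdb
  have tf : TfGoal := by
    intro G _ cc nvc N _ _ _ _ hN x n hn hx
    by_contra h1
    have o := (isOfFinOrder_iff_pow_eq_one.2 ⟨n, Nat.pos_of_ne_zero hn, hx⟩).orderOf_pos
    obtain ⟨p, hp, hd⟩ := Nat.exists_prime_and_dvd (mt orderOf_eq_one_iff.1 h1)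
    haveI := Fact.mk hp
    have y1 := orderOf_pow_orderOf_div o.ne' hd
    generalize x ^ (orderOf x / p) = y at y1
    obtain ⟨χ, N', _, _, _, k1, k2, -⟩ := ori p G N hN
    have y2 : y ∈ χ.ker := by
      have := ZMod.pow_card (χ y : ZMod p)
      rw [← Units.val_pow_eq_pow_val, ← map_pow, orderOf_dvd_iff_pow_eq_one.1 y1.dvd,
        map_one] at this
      exact (Units.ext this).symm
    haveI := nvc_inf (nvc_sub nvc χ.ker)
    have c : Nat.card (Subgroup.zpowers (⟨y, y2⟩ : χ.ker)) = p := by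
      rw [Nat.card_zpowers, ← Subgroup.orderOf_coe, y1]
    haveI := Nat.finite_of_card_ne_zero (c ▸ hp.ne_zero)
    exact not_split c (pda _ N' _ k1 k2 _
      (endQ_fin (endGoal _ k1.fg (cc_sub cc _) (nvc_sub nvc _)) _ _))
  refine ⟨tf, ?_⟩
  intro G _ cc nvc N _ _ _ _ hN z t s hs hz
  by_contra h1
  have tG := tf G cc nvc N hN
  obtain ⟨χ, N', _, _, _, k1, k2, k3⟩ := ori 3 G N hN
  have m : ∀ x : G, x ^ 2 ∈ χ.ker := fun x => by
    rw [MonoidHom.mem_ker, map_pow]
    exact ZMod.units_pow_card_sub_one_eq_one 3 _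
  haveI := nvc_inf (nvc_sub nvc χ.ker)
  obtain ⟨H, b1, ⟨χ₃, b2⟩, b3⟩ := bsg χ.ker
    (fun x n hn hx => Subtype.ext (tG x n hn (congrArg Subtype.val hx))) ⟨_, m z⟩ ⟨_, m t⟩
    (s + s) (by omega) (Subtype.ext (by
      show t ^ 2 * z ^ 2 * (t ^ 2)⁻¹ = (z ^ 2) ^ 3 ^ (s + s)
      have e : ∀ n : ℕ, t * z ^ n * t⁻¹ = z ^ (3 ^ s * n) := fun n => by
        rw [← conj_pow, hz, pow_mul]
      rw [show t ^ 2 * z ^ 2 * (t ^ 2)⁻¹ = t * (t * z ^ 2 * t⁻¹) * t⁻¹ by rw [sq t]; group, e, e,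
        ← pow_mul]
      congr 1
      ring))
    fun e => h1 (tG z 2 two_ne_zero (congrArg Subtype.val e))
  have q := fun K h h' => pdb _ N' _ k1 k2
    (endQ_fin (endGoal _ k1.fg (cc_sub cc _) (nvc_sub nvc _)) _ _) K (b3 K h h')
  by_cases hf : H.FiniteIndex
  · exact not_endQ b2 (q H le_rfl (by simp))
  · haveI : Infinite (χ.ker ⧸ H) := not_finite_iff_infinite.1 fun _ =>
      hf Subgroup.finiteIndex_of_finite_quotient
    exact b1 (pda _ N' _ k1 k3 H (endQ_two q))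

end Vale.Agent.P216TF
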